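import Vale.Agent.P021.Growth
import Vale.Agent.P021.DenRate
import Vale.Agent.P021.Exponent
import Vale.Agent.P021.Arith
import Vale.Agent.P021.Conclude

/-!
`μ(π) ≤ 7.1022`.
-/

namespace Vale.Agent.Results.P021.IrrMeasurePi

open Filter

theorem result :
    (∀ᶠ q : ℕ in atTop, ∀ p : ℤ, ((q : ℝ) ^ (7.1022 : ℝ))⁻¹ < |Real.pi - (p : ℝ) / q|) ∧
    ∀ ν : ℝ, {x : ℤ × ℕ | 2 ≤ x.2 ∧ Int.gcd x.1 x.2 = 1 ∧ 0 < |Real.pi - (x.1 : ℝ) / x.2| ∧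
      |Real.pi - (x.1 : ℝ) / x.2| < (x.2 : ℝ) ^ (-ν)}.Infinite → ν ≤ 7.1022 := by
  have h : Vale.Agent.P021.ExponentStmt :=
    Vale.Agent.P021.exponent_of_bounds Vale.Agent.P021.integralBound Vale.Agent.P021.residueBound
      Vale.Agent.P021.denRate Vale.Agent.P021.arith
  refine ⟨h, fun ν hν => Vale.Agent.P021.exponent_set_le h ν (hν.mono ?_)⟩
  intro x hx
  obtain ⟨h1, h2, h3, h4⟩ := hx
  exact ⟨h1, h2, h3, by rwa [Real.rpow_neg (Nat.cast_nonneg _)] at h4⟩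

end Vale.Agent.Results.P021.IrrMeasurePi
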